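import Vale.Agent.P370.H365.SimThm
import Vale.Agent.P370.HeisDefs
import Vale.Agent.P370.TM2Gen

/-!
Block G0: every promise problem in QMA, compiled in polynomial time into real circuits of the
branching clock.
-/

namespace Vale.Agent.P370.H365

open H220 (flp sg rop Step run acc AncZero)
open Vale.Agent.Lib.PolyTime Vale.Agent.P333

/-! ### The compiled circuit -/

/-- The number of data qubits minus one, i.e. the number of the extra qubit. -/
abbrev nn (C : Circuit) : ℕ := C.wit + C.anc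

/-- The list of the codes of the steps. -/
def steps (C : Circuit) : List SCode := simGates (nn C) C.gates

/-- The numbers of the ancillas. -/
def ancN (C : Circuit) : List ℕ := (List.range C.anc).map fun i => C.wit + i

/-- The compiled circuit, with `nn C + 1` qubits. -/
def compiled (C : Circuit) : List (Step (Fin (nn C + 1))) := (steps C).map (toStep (nn C))

/-- The ancillas. -/
def ancF (C : Circuit) : List (Fin (nn C + 1)) := (ancN C).map (fi (nn C))

theorem mem_ancF {C : Circuit} {i : Fin (nn C + 1)} :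
    i ∈ ancF C ↔ ∃ k : Fin C.anc, i = (Fin.natAdd C.wit k).castSucc := by
  simp only [ancF, ancN, List.map_map, List.mem_map, List.mem_range, Function.comp]
  constructor
  · rintro ⟨k, hk, rfl⟩
    refine ⟨⟨k, hk⟩, ?_⟩
    rw [fi_lt (n := nn C) (show C.wit + k < nn C by unfold nn; omega)]
    rfl
  · rintro ⟨k, rfl⟩
    refine ⟨k, k.2, ?_⟩
    rw [fi_lt (n := nn C) (show C.wit + (k : ℕ) < nn C by unfold nn; omega)]
    rfl

theorem ancZero_iff (C : Circuit) (ψ : (Fin (C.wit + C.anc) → Bool) → ℂ) :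
    AncZero (ancF C) (toReal ψ) ↔ ∀ s, (∃ k : Fin C.anc, s (Fin.natAdd C.wit k) = true) →
      ψ s = 0 := by
  constructor
  · intro h s ⟨k, hk⟩
    have h1 := h (Fin.snoc (α := fun _ => Bool) s false) ⟨(Fin.natAdd C.wit k).castSucc,
      mem_ancF.2 ⟨k, rfl⟩, by rw [Fin.snoc_castSucc]; exact hk⟩
    have h2 := h (Fin.snoc (α := fun _ => Bool) s true) ⟨(Fin.natAdd C.wit k).castSucc,
      mem_ancF.2 ⟨k, rfl⟩, by rw [Fin.snoc_castSucc]; exact hk⟩
    simp only [toReal, Fin.snoc_last, Fin.init_snoc, Bool.false_eq_true, if_false, if_true]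
      at h1 h2
    exact Complex.ext h1 h2
  · intro h x ⟨i, hi, hx⟩
    obtain ⟨k, rfl⟩ := mem_ancF.1 hi
    have := h (Fin.init x) ⟨k, hx⟩
    simp [toReal, this]

/-! ### Witnesses -/

theorem sum_input (C : Circuit) (w : (Fin C.wit → Bool) → ℂ) :
    ∑ s, ‖C.input w s‖ ^ 2 = ∑ s, ‖w s‖ ^ 2 := by
  rw [← (Fin.appendEquiv (α := Bool) C.wit C.anc).sum_comp, Fintype.sum_prod_type]
  refine Finset.sum_congr rfl fun s _ => ?_
  have h : ∀ t : Fin C.anc → Bool, ‖C.input w (Fin.appendEquiv C.wit C.anc (s, t))‖ ^ 2 =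
      if t = fun _ => false then ‖w s‖ ^ 2 else 0 := by
    intro t
    simp only [Circuit.input, Fin.appendEquiv, Equiv.coe_fn_mk, Fin.append_right, Fin.append_left]
    by_cases ht : t = fun _ => false
    · subst ht; simp
    · have : ¬ ∀ k, t k = false := fun h => ht (funext h)
      simp [ht, this]
  simp only [h, Finset.sum_ite_eq', Finset.mem_univ, if_true]

theorem input_zero (C : Circuit) (w : (Fin C.wit → Bool) → ℂ) (s) (h : ∃ k : Fin C.anc,
    s (Fin.natAdd C.wit k) = true) : C.input w s = 0 := by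
  obtain ⟨k, hk⟩ := h
  have : ¬ ∀ k : Fin C.anc, s (Fin.natAdd C.wit k) = false := fun h => by simp [h k] at hk
  simp [Circuit.input, this]

theorem exists_input (C : Circuit) (ψ : (Fin (C.wit + C.anc) → Bool) → ℂ)
    (h : ∀ s, (∃ k : Fin C.anc, s (Fin.natAdd C.wit k) = true) → ψ s = 0) :
    ∃ w, C.input w = ψ := by
  refine ⟨fun s => ψ (Fin.append s fun _ => false), ?_⟩
  funext s
  simp only [Circuit.input]
  split_ifs with hs
  · congr 1
    funext k
    refine Fin.addCases (fun i => ?_) (fun i => ?_) k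
    · simp
    · simp [hs i]
  · push Not at hs
    obtain ⟨k, hk⟩ := hs
    exact (h s ⟨k, by simpa using hk⟩).symm

theorem apply_smul {n : ℕ} (g : Gate) (c : ℂ) (ψ : (Fin n → Bool) → ℂ) :
    g.apply (fun s => c * ψ s) = fun s => c * g.apply ψ s := by
  funext s
  cases g <;> simp only [Gate.apply] <;> ring

theorem runGates_smul {n : ℕ} (gs : List Gate) (c : ℂ) (ψ : (Fin n → Bool) → ℂ) :
    runGates gs (fun s => c * ψ s) = fun s => c * runGates gs ψ s := by
  induction gs generalizing ψ with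
  | nil => rfl
  | cons g gs ih =>
    have : ∀ χ : (Fin n → Bool) → ℂ, runGates (g :: gs) χ = runGates gs (g.apply χ) :=
      fun _ => rfl
    rw [this, this, apply_smul, ih]

theorem input_smul (C : Circuit) (c : ℂ) (w : (Fin C.wit → Bool) → ℂ) :
    C.input (fun s => c * w s) = fun s => c * C.input w s := by
  funext s
  simp only [Circuit.input]
  split_ifs <;> simp

theorem accept_smul (C : Circuit) (c : ℂ) (w : (Fin C.wit → Bool) → ℂ) :
    C.accept (fun s => c * w s) = ‖c‖ ^ 2 * C.accept w := by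
  simp only [Circuit.accept, input_smul, runGates_smul, Finset.mul_sum, norm_mul, mul_pow]
  refine Finset.sum_congr rfl fun s _ => ?_
  split_ifs <;> simp

/-- The acceptance weights agree. -/
theorem acc_compiled {C : Circuit} (hC : C.WF) (w : (Fin C.wit → Bool) → ℂ) :
    acc (fi (nn C) 0) (run (compiled C) (toReal (C.input w))) = C.accept w := by
  have h := sim_run (n := nn C) (gs := C.gates) hC.2 (C.input w)
  rw [compiled, steps, h, acc_toReal (show 0 < nn C from hC.1)]
  rfl

/-- Completeness of the compilation. -/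
theorem compiled_yes {C : Circuit} (hC : C.WF) {p : ℝ} (h : ∃ w, IsState w ∧ p ≤ C.accept w) :
    ∃ φ : (Fin (nn C + 1) → Bool) → ℝ, 0 < H220.sq φ ∧ AncZero (ancF C) φ ∧
      p * H220.sq φ ≤ acc (fi (nn C) 0) (run (compiled C) φ) := by
  obtain ⟨w, hw, hp⟩ := h
  have h1 : H220.sq (toReal (C.input w)) = 1 := by
    rw [sq_toReal, sum_input]
    exact hw
  refine ⟨toReal (C.input w), by rw [h1]; exact one_pos,
    (ancZero_iff C _).2 fun s hs => input_zero C w s hs, ?_⟩
  rw [h1, mul_one, acc_compiled hC]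
  exact hp

/-- Soundness of the compilation. -/
theorem compiled_no {C : Circuit} (hC : C.WF) {p : ℝ} (h : ∀ w, IsState w → C.accept w ≤ p)
    (φ : (Fin (nn C + 1) → Bool) → ℝ) (hφ : AncZero (ancF C) φ) :
    acc (fi (nn C) 0) (run (compiled C) φ) ≤ p * H220.sq φ := by
  have e : toReal (ofReal' φ) = φ := toReal_ofReal' φ
  rw [← e] at hφ ⊢
  obtain ⟨w, hw⟩ := exists_input C _ ((ancZero_iff C _).1 hφ)
  rw [← hw, acc_compiled hC, sq_toReal]
  rw [show (∑ s, ‖C.input w s‖ ^ 2) = ∑ s, ‖w s‖ ^ 2 from sum_input C w]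
  rcases eq_or_lt_of_le (show 0 ≤ ∑ s, ‖w s‖ ^ 2 from
    Finset.sum_nonneg fun _ _ => by positivity) with h0 | h0
  · have hz : w = fun s => (0 : ℂ) * w s := by
      funext s
      have := (Finset.sum_eq_zero_iff_of_nonneg (fun s _ => by positivity)).1 h0.symm s
        (Finset.mem_univ _)
      simpa using this
    rw [hz, accept_smul]
    simp
  · set N := ∑ s, ‖w s‖ ^ 2 with hN
    have hs : IsState (fun s => (((√N)⁻¹ : ℝ) : ℂ) * w s) := by
      unfold IsState
      simp only [norm_mul, mul_pow, ← Finset.mul_sum, ← hN, Complex.norm_real, Real.norm_eq_abs,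
        sq_abs, inv_pow, Real.sq_sqrt h0.le]
      exact inv_mul_cancel₀ h0.ne'
    have := h _ hs
    rw [accept_smul, Complex.norm_real, Real.norm_eq_abs, sq_abs, inv_pow, Real.sq_sqrt h0.le]
      at this
    rw [inv_mul_le_iff₀ h0] at this
    linarith [mul_comm N p]

/-! ### Polynomial time -/

/-- Codes of gates. -/
def gateN : Gate → ℕ × ℕ × ℕ
  | .H i => (0, i, 0)
  | .T i => (1, i, 0)
  | .CNOT i j => (2, i, j)

/-- Simulation of a gate, in terms of the codes. -/
def simN (r : ℕ) (g : ℕ × ℕ × ℕ) : List SCode :=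
  if g.1 = 0 then [(r, some (g.2.1, 2), none)]
  else if g.1 = 1 then crot g.2.1 r 1 0
  else crot g.2.2 r 2 0 ++ crot g.2.1 g.2.2 2 0 ++ crot g.2.1 r 2 0 ++ crot g.2.2 r 0 2

theorem simN_gateN (r : ℕ) (g : Gate) : simN r (gateN g) = simGate r g := by
  cases g <;> simp [simN, gateN, simGate]

theorem listW_map {α β : Type} (c : α → List Bool) (d : β → α) (l : List β) :
    listW (fun b => c (d b)) l = listW c (l.map d) := by
  induction l with
  | nil => rfl
  | cons a l ih => simp [listW, ih]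

theorem circuitW_eq (C : Circuit) :
    circuitW C = enc (Un.mk C.wit, Un.mk C.anc, C.gates.map gateN) := by
  have h1 : ∀ g : Gate, gateW g = enc (gateN g) := by
    intro g
    cases g <;> simp [gateW, gateN, enc_pair, enc_nat, pairW_eq_pr_gen]
  have h2 : ∀ l : List Gate, listW gateW l = enc (l.map gateN) := by
    intro l
    induction l with
    | nil => rfl
    | cons a l ih => rw [listW, List.map_cons, enc_cons, ih, h1, pairW_eq_pr_gen]
  rw [circuitW, enc_pair, enc_pair, enc_un, enc_un, h2, pairW_eq_pr_gen, pairW_eq_pr_gen]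

theorem PT_crot {α : Type} [Enc α] {q s k l : α → ℕ} (hq : PT ∅ q) (hs : PT ∅ s) (hk : PT ∅ k)
    (hl : PT ∅ l) : PT ∅ (fun a => crot (q a) (s a) (k a) (l a)) := by
  unfold crot
  exact (hq.pair ((hs.pair hk).some.pair (hs.pair hl).some)).cons
    ((hq.pair ((hs.pair hl).some.pair (PT.const none))).cons
      ((hq.pair ((hs.pair hk).some.pair (PT.const none))).cons (PT.const [])))

theorem PT_simN : PT ∅ (fun p : ℕ × (ℕ × ℕ × ℕ) => simN p.1 p.2) := by
  unfold simN
  have h0 : PT ∅ (fun p : ℕ × (ℕ × ℕ × ℕ) => p.1) := PT.fst'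
  have h1 : PT ∅ (fun p : ℕ × (ℕ × ℕ × ℕ) => p.2.1) := PT.snd'.fst
  have h2 : PT ∅ (fun p : ℕ × (ℕ × ℕ × ℕ) => p.2.2.1) := PT.snd'.snd.fst
  have h3 : PT ∅ (fun p : ℕ × (ℕ × ℕ × ℕ) => p.2.2.2) := PT.snd'.snd.snd
  refine PT.ite (PT.eqNat h1 (PT.const 0)) ?_ (PT.ite (PT.eqNat h1 (PT.const 1)) ?_ ?_)
  · exact (h0.pair ((h2.pair (PT.const 2)).some.pair (PT.const none))).cons (PT.const [])
  · exact PT_crot h2 h0 (PT.const 1) (PT.const 0)
  · exact (((PT_crot h3 h0 (PT.const 2) (PT.const 0)).append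
      (PT_crot h2 h3 (PT.const 2) (PT.const 0))).append
      (PT_crot h2 h0 (PT.const 2) (PT.const 0))).append
      (PT_crot h3 h0 (PT.const 0) (PT.const 2))

/-- The compilation, as a function of the input word: numbers of witness and ancilla qubits and
the list of the codes of the steps. -/
theorem PT_compile {V : List Bool → Circuit} (hV : PolyTime (fun w : List Bool => w) circuitW V) :
    PT ∅ (fun x : Raw => (Un.mk (V x.w).wit, Un.mk (V x.w).anc, steps (V x.w))) := by
  obtain ⟨MV⟩ := hV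
  obtain ⟨W, hW, hW'⟩ := exists_FP_of_tm2_gen (A := ∅) MV
  have h : PT ∅ (fun x : Raw => (Un.mk (V x.w).wit, Un.mk (V x.w).anc,
      (V x.w).gates.map gateN)) := by
    refine ⟨W, hW, fun x => ?_⟩
    rw [enc_raw, ← circuitW_eq]
    exact hW' x.w
  have hw := h.fst
  have ha := h.snd.fst
  have hg := h.snd.snd
  refine hw.pair (ha.pair ?_)
  refine (PT.flatMap (f := fun x g => simN ((V x.w).wit + (V x.w).anc) g) hg ?_).congr fun x => ?_
  · exact PT_simN.comp (((hw.unVal.add ha.unVal).comp PT.fst').pair PT.snd')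
  · simp only [steps, simGates, List.flatMap_map, simN_gateN, nn]

/-- Block G0: a promise problem in QMA is compiled, in polynomial time, into real circuits of the
branching clock. -/
theorem compile {A : Set (List Bool) × Set (List Bool)} (hA : A ∈ classQMA) :
    ∃ V : List Bool → Circuit,
      PT ∅ (fun x : Raw => (Un.mk (V x.w).wit, Un.mk (V x.w).anc, steps (V x.w))) ∧
      (∀ x, 1 ≤ nn (V x) ∧ ∀ g ∈ steps (V x), SOK (nn (V x)) g) ∧
      (∀ x ∈ A.1, ∃ φ : (Fin (nn (V x) + 1) → Bool) → ℝ, 0 < H220.sq φ ∧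
        AncZero (ancF (V x)) φ ∧
        2 / 3 * H220.sq φ ≤ acc (fi (nn (V x)) 0) (run (compiled (V x)) φ)) ∧
      (∀ x ∈ A.2, ∀ φ : (Fin (nn (V x) + 1) → Bool) → ℝ, AncZero (ancF (V x)) φ →
        acc (fi (nn (V x)) 0) (run (compiled (V x)) φ) ≤ 1 / 3 * H220.sq φ) := by
  obtain ⟨-, V, hV, hWF, hyes, hno⟩ := hA
  refine ⟨V, PT_compile hV, fun x => ⟨(hWF x).1, simGates_ok (hWF x).2⟩, fun x hx => ?_,
    fun x hx => ?_⟩
  · exact compiled_yes (hWF x) (hyes x hx)
  · exact compiled_no (hWF x) (hno x hx)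

theorem compiled_wf {C : Circuit} (h : ∀ g ∈ steps C, SOK (nn C) g) :
    ∀ g ∈ compiled C, g.WF := by
  intro g hg
  obtain ⟨c, hc, rfl⟩ := List.mem_map.1 hg
  exact (h c hc).wf

end Vale.Agent.P370.H365
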