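import Vale.Agent.P370.H365.GapC
import Vale.Agent.P370.H405.C2Proj

/-!
P370, block C2 (a): the gap for the orbitals `orbsOfClosed` (closed shells `0, …, J - 1` and an
orthonormal basis of shell `J`), in the notation of `H405`.
-/

namespace Vale.Agent.P370.H365

open MeasureTheory Filter Topology
open Vale.Agent.P363.Stmt Vale.Agent.P363.R.Sob Vale.Agent.P363.H382 Vale.Agent.P363.R.Top
open Vale.Agent.P363.H518 (coef)
open Vale.Agent.P363.H95 (tp cT)
open Vale.Agent.P363.H849 (H1 ip)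
open Vale.Agent.P370.H405.C3 (cu cgu Orbs orbsOfClosed)
open Vale.Agent.P370.H405.C2 (vH Full PP QQ cT_QQ)
open Vale.Agent.P370.H624 (Filled Shell se Closed)
open scoped ENNReal ComplexConjugate ContDiff

set_option linter.unusedSectionVars false

noncomputable section

theorem energy_pot0_vH {N : ℕ} (Ψ : ElectronState N) :
    energy (sumPotential vH) Ψ = energy (pot 0) Ψ := by
  congr 1
  funext x
  simp [sumPotential, vH, pot]

theorem coreSq_zero {K : Type} [Fintype K] [DecidableEq K] {m N : ℕ} {u : K ⊕ Fin m → R3 → ℂ}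
    {Ψ : ElectronState N} (h : ∀ J : Fin N → (K ⊕ Fin m) × Fin 2, Full J → cT u Ψ J = 0) :
    coreSq u Ψ = 0 := by
  unfold coreSq
  refine Finset.sum_eq_zero fun J hJ => ?_
  rw [h J (by simpa [coreSet, Full] using hJ)]
  simp

section

variable {J m N D : ℕ} (φ : Closed J → H1) (hφ : ∀ a, φ a ∈ Shell a.1.1)
  (hφo : ∀ a b, ip (φ a) (φ b) = if a = b then 1 else 0) (w : Fin m → H1)
  (hw : ∀ i, w i ∈ Shell J) (ho : ∀ i k, ip (w i) (w k) = if i = k then 1 else 0)

/-- **gap of the noninteracting atom** in the notation of `H405` -/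
theorem gap_orbs (hm : m = (J + 1) ^ 2) (hN : N = D + 2 * Fintype.card (Closed J))
    (Ψ : ElectronState N) :
    ((orbsOfClosed φ hφ hφo w hw ho).e0 D + gapJ J) * normSq Ψ -
      gapJ J * coreSq (cu (orbsOfClosed φ hφ hφo w hw ho).φ) Ψ ≤ energy (pot 0) Ψ := by
  obtain ⟨S, h1, h2, h3, h4⟩ := H624.filled_of_closed φ hφ hφo (ι := Fin m) (by simp [hm]) w hw ho
  have h := gap_closed S (fun k => by rw [h3]; exact k.1.2) h4 (N := N) Ψ
  have e1 : cu S.φ = cu (orbsOfClosed φ hφ hφo w hw ho).φ := by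
    funext a x
    rcases a with a | i
    · show (((S.φ (Sum.inl a)).1.1 x : ℝ) : ℂ) = (((φ a).1.1 x : ℝ) : ℂ)
      rw [h1]
    · show (((S.φ (Sum.inr i)).1.1 x : ℝ) : ℂ) = (((w i).1.1 x : ℝ) : ℂ)
      rw [h2]
  have e2 : E0 N (fun k => se (S.lv (Sum.inl k))) (se J) =
      (orbsOfClosed φ hφ hφo w hw ho).e0 D := by
    unfold E0 Orbs.e0
    have e3 : ∀ k : Closed J, se (S.lv (Sum.inl k)) = (orbsOfClosed φ hφ hφo w hw ho).e k := by
      intro k
      rw [h3]
      rfl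
    have e4 : (orbsOfClosed φ hφ hφo w hw ho).eJ = se J := rfl
    rw [Finset.sum_congr rfl fun k _ => e3 k, e4, hN]
    push_cast
    ring
  rw [← e1, ← e2]
  exact h

theorem coreSq_le_orbs (Ψ : ElectronState N) (hm : m = (J + 1) ^ 2) :
    coreSq (cu (orbsOfClosed φ hφ hφo w hw ho).φ) Ψ ≤ normSq Ψ := by
  obtain ⟨S, h1, h2, h3, h4⟩ := H624.filled_of_closed φ hφ hφo (ι := Fin m) (by simp [hm]) w hw ho
  have e1 : cu S.φ = cu (orbsOfClosed φ hφ hφo w hw ho).φ := by
    funext a x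
    rcases a with a | i
    · show (((S.φ (Sum.inl a)).1.1 x : ℝ) : ℂ) = (((φ a).1.1 x : ℝ) : ℂ)
      rw [h1]
    · show (((S.φ (Sum.inr i)).1.1 x : ℝ) : ℂ) = (((w i).1.1 x : ℝ) : ℂ)
      rw [h2]
  rw [← e1]
  exact coreSq_le_closed S Ψ

/-- **the gap on the part without filled closed shells** -/
theorem gap_QQ (hm : m = (J + 1) ^ 2) (hN : N = D + 2 * Fintype.card (Closed J))
    (Ψ : ElectronState N) :
    ((orbsOfClosed φ hφ hφo w hw ho).e0 D + gapJ J) *
        normSq (QQ (orbsOfClosed φ hφ hφo w hw ho) Ψ) ≤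
      energy (sumPotential vH) (QQ (orbsOfClosed φ hφ hφo w hw ho) Ψ) := by
  have h := gap_orbs φ hφ hφo w hw ho hm hN (QQ (orbsOfClosed φ hφ hφo w hw ho) Ψ)
  rw [coreSq_zero fun J' hJ' => cT_QQ (orbsOfClosed φ hφ hφo w hw ho) Ψ hJ', mul_zero,
    sub_zero] at h
  rw [energy_pot0_vH]
  exact h

end

end

end Vale.Agent.P370.H365
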