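import Vale.Agent.P370.H365.GapN
import Vale.Agent.P370.H405.C3Final

/-!
P370, block C2 (a): the gap of the noninteracting atom with closed hydrogen shells `0, …, J - 1` and
the open shell `J`.
-/

namespace Vale.Agent.P370.H365

open MeasureTheory Filter Topology
open Vale.Agent.P363.Stmt Vale.Agent.P363.R.Sob Vale.Agent.P363.H382 Vale.Agent.P363.R.Top
open Vale.Agent.P363.H518 (coef)
open Vale.Agent.P363.H95 (tp cT)
open Vale.Agent.P370.H405.C3 (cu cgu Orbs)
open Vale.Agent.P370.H624 (Filled Shell se)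
open scoped ENNReal ComplexConjugate ContDiff

set_option linter.unusedSectionVars false

noncomputable section

theorem oneGap_filled {n : ℕ} {ι : Type} [Fintype ι] [DecidableEq ι] (S : Filled n ι) :
    OneGap (cu S.φ) (fun a => se (S.lv a)) (se n) where
  mem a := (Vale.Agent.P370.H405.C3.oneBody S.φ).mem a
  on a b := Vale.Agent.P370.H405.C3.orth S.on a b
  ineq f g hf hg hW := by
    have h := S.gap_complex hf hg hW
    have e1 : ∀ a, coef volume (cu S.φ a) f = ∫ x, (S.orb a x : ℂ) * f x := by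
      intro a
      unfold coef cu Filled.orb
      congr 1; funext x
      rw [Complex.conj_ofReal]
    have e2 : ∫ x, ‖x‖⁻¹ * ‖f x‖ ^ 2 = ∫ x, ‖f x‖ ^ 2 / ‖x‖ := by
      congr 1; funext x
      rw [div_eq_inv_mul]
    simp only [e1, e2]
    exact h

/-- the gap above the open shell `J` -/
def gapJ (J : ℕ) : ℝ := se (J + 1) - se J

theorem gapJ_eq (J : ℕ) : gapJ J =
    (2 * J + 3) / (2 * ((J : ℝ) + 1) ^ 2 * ((J : ℝ) + 2) ^ 2) := by
  unfold gapJ se
  push_cast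
  have h1 : (J : ℝ) + 1 ≠ 0 := by positivity
  have h2 : (J : ℝ) + 2 ≠ 0 := by positivity
  have h3 : (J : ℝ) + 1 + 1 = J + 2 := by ring
  rw [h3]
  field_simp
  ring

theorem gapJ_pos (J : ℕ) : 0 < gapJ J := by
  rw [gapJ_eq]; positivity

/-- `1/(n+1)³ ≤ gap` with `n = J + 1`. -/
theorem gapJ_lower (J : ℕ) : 1 / ((J : ℝ) + 2) ^ 3 ≤ gapJ J := by
  rw [gapJ_eq, div_le_div_iff₀ (by positivity) (by positivity)]
  have h0 : (0 : ℝ) ≤ J := Nat.cast_nonneg J
  have e : (2 * (J : ℝ) + 3) * ((J : ℝ) + 2) ^ 3 - 1 * (2 * ((J : ℝ) + 1) ^ 2 * ((J : ℝ) + 2) ^ 2)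
      = ((J : ℝ) + 2) ^ 2 * (3 * J + 4) := by ring
  nlinarith [mul_nonneg (sq_nonneg ((J : ℝ) + 2)) (by linarith : (0 : ℝ) ≤ 3 * J + 4)]

theorem se_gap {i J : ℕ} (h : i < J) : se i + gapJ J ≤ se J := by
  have hmono : se i ≤ se (J - 1) := H624.se_strictMono.monotone (by omega)
  obtain ⟨j, rfl⟩ : ∃ j, J = j + 1 := ⟨J - 1, by omega⟩
  simp only [Nat.add_sub_cancel] at hmono
  have h2 : gapJ (j + 1) ≤ gapJ j := by
    rw [gapJ_eq, gapJ_eq, div_le_div_iff₀ (by positivity) (by positivity)]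
    push_cast
    have h0 : (0 : ℝ) ≤ j := Nat.cast_nonneg j
    have e : (2 * (j : ℝ) + 3) * (2 * ((j : ℝ) + 1 + 1) ^ 2 * ((j : ℝ) + 1 + 2) ^ 2) -
        (2 * ((j : ℝ) + 1) + 3) * (2 * ((j : ℝ) + 1) ^ 2 * ((j : ℝ) + 2) ^ 2) =
        2 * ((j : ℝ) + 2) ^ 2 * (6 * (j : ℝ) ^ 2 + 24 * j + 22) := by ring
    have : (0 : ℝ) ≤ 2 * ((j : ℝ) + 2) ^ 2 * (6 * (j : ℝ) ^ 2 + 24 * j + 22) := by positivity
    linarith
  unfold gapJ at h2 ⊢
  linarith

variable {J m : ℕ} {K : Type} [Fintype K] [DecidableEq K]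

/-- **the gap of the noninteracting atom**, closed shells below the open shell `J`. -/
theorem gap_closed (S : Filled (J + 1) (K ⊕ Fin m)) (hK : ∀ k, S.lv (Sum.inl k) < J)
    (hV : ∀ i, S.lv (Sum.inr i) = J) {N : ℕ} (Ψ : ElectronState N) :
    (E0 N (fun k => se (S.lv (Sum.inl k))) (se J) + gapJ J) * normSq Ψ -
      gapJ J * coreSq (cu S.φ) Ψ ≤ energy (pot 0) Ψ := by
  refine gapN (einf := se (J + 1)) (gapJ_pos J).le (fun k => se_gap (hK k)) ?_ ?_ Ψ
  · unfold gapJ; linarith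
  · have h := oneGap_filled S
    have e : (fun a => se (S.lv a)) = eKV (K := K) (V := Fin m)
        (fun k => se (S.lv (Sum.inl k))) (se J) := by
      funext a
      rcases a with k | i
      · rfl
      · simp [eKV, hV]
    rwa [e] at h

theorem coreSq_le_closed (S : Filled (J + 1) (K ⊕ Fin m)) {N : ℕ} (Ψ : ElectronState N) :
    coreSq (cu S.φ) Ψ ≤ normSq Ψ := coreSq_le (oneGap_filled S) Ψ

end

end Vale.Agent.P370.H365
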