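import Vale.Agent.P363.R2.h518.StarFinal
import Vale.Agent.P363.H95.OfTen

/-!
P370, block C2 (a): the gap of the noninteracting `N`-electron atom, for an arbitrary finite
orthonormal family of orbitals `K ⊕ V` (closed orbitals `K`, one open shell `V`) with a one-body
lower bound.
-/

namespace Vale.Agent.P370.H365

open MeasureTheory Filter Topology
open Vale.Agent.P363.Stmt Vale.Agent.P363.R.Sob Vale.Agent.P363.H382 Vale.Agent.P363.R.Top
open Vale.Agent.P363.H518 (coef IsONB prodFun pc coef_perm coef_pc hasSum_pc memLp_pc isWD_pc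
  exists_isONB_extension piM integrable_inv_norm)
open Vale.Agent.P363.H95 (tp cT)
open scoped ENNReal ComplexConjugate ContDiff

set_option linter.unusedSectionVars false

noncomputable section

/-- The one-body input: an orthonormal family `φ`, energies `e`, and the lower bound `einf` on the
orthogonal complement. -/
structure OneGap {ι : Type} [Fintype ι] [DecidableEq ι] (φ : ι → R3 → ℂ) (e : ι → ℝ)
    (einf : ℝ) : Prop where
  mem : ∀ a, MemLp (φ a) 2 (volume : Measure R3)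
  on : ∀ a b, coef volume (φ a) (φ b) = if a = b then 1 else 0
  ineq : ∀ (f : R3 → ℂ) (g : Fin 3 → R3 → ℂ), MemLp f 2 (volume : Measure R3) →
    (∀ k, MemLp (g k) 2 (volume : Measure R3)) →
    (∀ k, IsWD (volume : Measure R3) (e3 k) f (g k)) →
    ∑ a, e a * ‖coef volume (φ a) f‖ ^ 2 +
        einf * ((∫ x, ‖f x‖ ^ 2) - ∑ a, ‖coef volume (φ a) f‖ ^ 2) ≤
      (1 / 2) * (∑ k, ∫ x, ‖g k x‖ ^ 2) - ∫ x, ‖x‖⁻¹ * ‖f x‖ ^ 2

section onebody

variable {ι : Type} [Fintype ι] [DecidableEq ι] {κ : Type} [Countable κ]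

/-- the weights of a basis extending the family -/
def wt (e : ι → ℝ) (einf : ℝ) : ι ⊕ κ → ℝ := Sum.elim e fun _ => einf

theorem wt_bound (e : ι → ℝ) (einf : ℝ) (b : ι ⊕ κ) : |wt e einf b| ≤ (∑ a, |e a|) + |einf| := by
  rcases b with a | k
  · simp only [wt, Sum.elim_inl]
    have := Finset.single_le_sum (f := fun a => |e a|) (fun a _ => abs_nonneg _)
      (Finset.mem_univ a)
    have h2 : 0 ≤ |einf| := abs_nonneg _
    linarith
  · simp only [wt, Sum.elim_inr]
    have : 0 ≤ ∑ a, |e a| := Finset.sum_nonneg fun a _ => abs_nonneg _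
    linarith

variable {φ : ι → R3 → ℂ} {e : ι → ℝ} {einf : ℝ} {u : ι ⊕ κ → R3 → ℂ}

theorem hasSum_wt (hu : IsONB volume u) (hul : ∀ a, u (Sum.inl a) = φ a) {f : R3 → ℂ}
    (hf : MemLp f 2 (volume : Measure R3)) :
    HasSum (fun b => wt e einf b * ‖coef volume (u b) f‖ ^ 2)
      (∑ a, e a * ‖coef volume (φ a) f‖ ^ 2 +
        einf * ((∫ x, ‖f x‖ ^ 2) - ∑ a, ‖coef volume (φ a) f‖ ^ 2)) := by
  have h1 := (hu.hasSum hf).mul_left einf
  have h2 : HasSum (fun b : ι ⊕ κ => Sum.elim (fun a => (e a - einf) *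
      ‖coef volume (φ a) f‖ ^ 2) (fun _ => 0) b)
      (∑ a, (e a - einf) * ‖coef volume (φ a) f‖ ^ 2) := by
    have h3 : HasSum (fun a : ι => (e a - einf) * ‖coef volume (φ a) f‖ ^ 2)
      (∑ a, (e a - einf) * ‖coef volume (φ a) f‖ ^ 2) := hasSum_fintype _
    have h4 := h3.sum (f := Sum.elim (fun a => (e a - einf) *
      ‖coef volume (φ a) f‖ ^ 2) (fun _ : κ => (0 : ℝ))) (hasSum_zero)
    simpa using h4
  have h3 := h1.add h2
  have hfun : (fun b => wt e einf b * ‖coef volume (u b) f‖ ^ 2) = fun b : ι ⊕ κ =>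
      einf * ‖coef volume (u b) f‖ ^ 2 + Sum.elim (fun a => (e a - einf) *
      ‖coef volume (φ a) f‖ ^ 2) (fun _ => 0) b := by
    funext b
    rcases b with a | k
    · simp only [wt, Sum.elim_inl, hul]; ring
    · simp only [wt, Sum.elim_inr]; ring
  have hval : ∑ a, e a * ‖coef volume (φ a) f‖ ^ 2 +
        einf * ((∫ x, ‖f x‖ ^ 2) - ∑ a, ‖coef volume (φ a) f‖ ^ 2) =
      einf * (∫ x, ‖f x‖ ^ 2) + ∑ a, (e a - einf) * ‖coef volume (φ a) f‖ ^ 2 := by
    have : ∀ a, (e a - einf) * ‖coef volume (φ a) f‖ ^ 2 =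
        e a * ‖coef volume (φ a) f‖ ^ 2 - einf * ‖coef volume (φ a) f‖ ^ 2 := by
      intro a; ring
    rw [Finset.sum_congr rfl fun a _ => this a, Finset.sum_sub_distrib, ← Finset.mul_sum]
    ring
  rw [hfun, hval]
  exact h3

/-- coefficients in the product basis -/
def cI {N : ℕ} (u : ι ⊕ κ → R3 → ℂ) (f : Conf N → ℂ) (I : Fin N → ι ⊕ κ) : ℂ :=
  coef volume (prodFun u I) f

theorem summable_cI (hu : IsONB volume u) {N : ℕ} {f : Conf N → ℂ} (hf : MemLp f 2 volume) :
    HasSum (fun I => ‖cI u f I‖ ^ 2) (∫ x, ‖f x‖ ^ 2) :=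
  (hu.pi N).hasSum hf

theorem summable_wt_cI (hu : IsONB volume u) (e : ι → ℝ) (einf : ℝ) {N : ℕ} {f : Conf N → ℂ}
    (hf : MemLp f 2 volume) (i : Fin N) :
    Summable (fun I => wt e einf (I i) * ‖cI u f I‖ ^ 2) := by
  apply Summable.of_norm_bounded
    ((summable_cI hu hf).summable.mul_left ((∑ a, |e a|) + |einf|))
  intro I
  rw [Real.norm_eq_abs, abs_mul, abs_of_nonneg (sq_nonneg ‖cI u f I‖)]
  exact mul_le_mul_of_nonneg_right (wt_bound e einf (I i)) (sq_nonneg _)

/-- **the one-body inequality in the `i`-th electron.** -/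
theorem electron_ineq (H : OneGap φ e einf) (hu : IsONB volume u)
    (hul : ∀ a, u (Sum.inl a) = φ a)
    {n : ℕ} (i : Fin (n + 1)) {f : Conf (n + 1) → ℂ} {g : Fin 3 → Conf (n + 1) → ℂ}
    (hf : MemLp f 2 volume) (hg : ∀ k, MemLp (g k) 2 volume)
    (hfg : ∀ k, IsWD volume (dir i k) f (g k))
    (hint : Integrable (fun x => ‖x i‖⁻¹ * ‖f x‖ ^ 2)) :
    ∑' I, wt e einf (I i) * ‖cI u f I‖ ^ 2 ≤
      (1 / 2) * (∑ k, ∫ x, ‖g k x‖ ^ 2) - ∫ x, ‖x i‖⁻¹ * ‖f x‖ ^ 2 := by
  have hWm : Measurable (fun x : R3 => ‖x‖⁻¹) := measurable_norm.inv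
  -- Parseval for the pieces
  obtain ⟨-, hV⟩ := hasSum_pc (μ := (volume : Measure R3)) hu i hf hWm
    (fun x => inv_nonneg.2 (norm_nonneg x)) hint
  have hK : ∀ k, HasSum (fun J => ∫ x, ‖pc volume u i J (g k) x‖ ^ 2) (∫ x, ‖g k x‖ ^ 2) := by
    intro k
    have h1 : Integrable (fun z : Conf (n + 1) => (1 : ℝ) * ‖g k z‖ ^ 2) := by
      simpa using (memLp_two_iff_integrable_sq_norm (hg k).1).1 (hg k)
    have h2 := (hasSum_pc (μ := (volume : Measure R3)) hu i (hg k) (W := fun _ => 1)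
      measurable_const (fun _ => zero_le_one) h1).2
    simp only [one_mul] at h2
    exact h2
  have hA : HasSum (fun J => (1 / 2) * (∑ k, ∫ x, ‖pc volume u i J (g k) x‖ ^ 2) -
      ∫ x, ‖x‖⁻¹ * ‖pc volume u i J f x‖ ^ 2)
      ((1 / 2) * (∑ k, ∫ x, ‖g k x‖ ^ 2) - ∫ x, ‖x i‖⁻¹ * ‖f x‖ ^ 2) :=
    ((hasSum_sum fun k _ => hK k).mul_left (1 / 2)).sub hV
  -- the lower bound for each `J`
  have hJ : ∀ J, ∑' b, wt e einf b * ‖coef volume (u b) (pc volume u i J f)‖ ^ 2 ≤
      (1 / 2) * (∑ k, ∫ x, ‖pc volume u i J (g k) x‖ ^ 2) -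
      ∫ x, ‖x‖⁻¹ * ‖pc volume u i J f x‖ ^ 2 := by
    intro J
    rw [(hasSum_wt hu hul (memLp_pc hu i J hf)).tsum_eq]
    exact H.ineq _ _ (memLp_pc hu i J hf) (fun k => memLp_pc hu i J (hg k))
      (fun k => isWD_pc hu i k J (hfg k) hf (hg k))
  -- reindexing of the double sum
  let E : (Fin (n + 1) → ι ⊕ κ) ≃ (ι ⊕ κ) × (Fin n → ι ⊕ κ) :=
    (Fin.insertNthEquiv (fun _ : Fin (n + 1) => ι ⊕ κ) i).symm
  have he : ∀ I, wt e einf (I i) * ‖cI u f I‖ ^ 2 =
      wt e einf (E I).1 * ‖coef volume (u (E I).1) (pc volume u i (E I).2 f)‖ ^ 2 := by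
    intro I
    have h1 : cI u f I = coef volume (u (I i)) (pc volume u i (i.removeNth I) f) :=
      coef_pc hu i I hf
    rw [h1]; rfl
  have hs1 : Summable (fun p : (ι ⊕ κ) × (Fin n → ι ⊕ κ) =>
      wt e einf p.1 * ‖coef volume (u p.1) (pc volume u i p.2 f)‖ ^ 2) := by
    have h1 := summable_wt_cI hu e einf hf i
    rw [← E.symm.summable_iff] at h1
    convert h1 using 1
    funext p
    have := he (E.symm p)
    simp only [Function.comp_apply]
    rw [this, Equiv.apply_symm_apply]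
  have h2 : ∑' I, wt e einf (I i) * ‖cI u f I‖ ^ 2 =
      ∑' J, ∑' b, wt e einf b * ‖coef volume (u b) (pc volume u i J f)‖ ^ 2 := by
    simp only [he]
    rw [E.tsum_eq (fun p : (ι ⊕ κ) × (Fin n → ι ⊕ κ) =>
      wt e einf p.1 * ‖coef volume (u p.1) (pc volume u i p.2 f)‖ ^ 2)]
    rw [← (Equiv.prodComm (Fin n → ι ⊕ κ) (ι ⊕ κ)).tsum_eq]
    have hs2 := (Equiv.prodComm (Fin n → ι ⊕ κ) (ι ⊕ κ)).summable_iff.2 hs1
    exact hs2.tsum_prod
  rw [h2, ← hA.tsum_eq]
  have hs3 : Summable (fun J => ∑' b, wt e einf b *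
      ‖coef volume (u b) (pc volume u i J f)‖ ^ 2) := by
    have hs2 := (Equiv.prodComm (Fin n → ι ⊕ κ) (ι ⊕ κ)).summable_iff.2 hs1
    exact hs2.prod
  exact hs3.tsum_le_tsum hJ hA.summable

/-- the coefficients of a product basis vanish on non-injective tuples (Pauli). -/
theorem cI_eq_zero {N : ℕ} (Ψ : ElectronState N) (s : Fin N → Fin 2) (I : Fin N → ι ⊕ κ)
    (hni : ¬ Function.Injective fun i => (I i, s i)) : cI u (Ψ.amp s) I = 0 := by
  rw [Function.not_injective_iff] at hni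
  obtain ⟨i, j, hij, hne⟩ := hni
  simp only [Prod.mk.injEq] at hij
  set σ := Equiv.swap i j with hσ
  have hI : I ∘ σ = I := by
    funext l
    simp only [Function.comp_apply, hσ]
    rcases eq_or_ne l i with h | h
    · subst h; rw [Equiv.swap_apply_left]; exact hij.1.symm
    · rcases eq_or_ne l j with h' | h'
      · subst h'; rw [Equiv.swap_apply_right]; exact hij.1
      · rw [Equiv.swap_apply_of_ne_of_ne h h']
  have hs : s ∘ σ = s := by
    funext l
    simp only [Function.comp_apply, hσ]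
    rcases eq_or_ne l i with h | h
    · subst h; rw [Equiv.swap_apply_left]; exact hij.2.symm
    · rcases eq_or_ne l j with h' | h'
      · subst h'; rw [Equiv.swap_apply_right]; exact hij.2
      · rw [Equiv.swap_apply_of_ne_of_ne h h']
  have h1 := coef_perm (μ := (volume : Measure R3)) (u := u) σ I (Ψ.amp s)
  rw [hI] at h1
  have h2 : ∀ᵐ x : Conf N, Ψ.amp s (x ∘ σ.symm) = - Ψ.amp s x := by
    have h3 : ∀ᵐ x : Conf N, Ψ.amp (s ∘ σ) (x ∘ σ) = ((Equiv.Perm.sign σ : ℤ) : ℂ) * Ψ.amp s x :=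
      Ψ.antisymm σ s
    have h4 : σ.symm = σ := Equiv.symm_swap i j
    rw [h4]
    filter_upwards [h3] with x hx
    rw [hs] at hx
    rw [hx, hσ, Equiv.Perm.sign_swap hne]
    simp
  have h3 : coef (piM (volume : Measure R3) N) (prodFun u I) (fun x => Ψ.amp s (x ∘ σ.symm)) =
      - coef (piM (volume : Measure R3) N) (prodFun u I) (Ψ.amp s) := by
    unfold coef
    rw [← integral_neg]
    apply integral_congr_ae
    have h2' : ∀ᵐ x ∂(piM (volume : Measure R3) N), Ψ.amp s (x ∘ σ.symm) = - Ψ.amp s x := h2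
    filter_upwards [h2'] with x hx
    rw [hx]; ring
  rw [h3] at h1
  have h4 : coef (piM (volume : Measure R3) N) (prodFun u I) (Ψ.amp s) = 0 := by
    have : (2 : ℂ) * coef (piM (volume : Measure R3) N) (prodFun u I) (Ψ.amp s) = 0 := by
      linear_combination (-1 : ℂ) * h1
    simpa using this
  exact h4

theorem cT_eq {N : ℕ} (hul : ∀ a, u (Sum.inl a) = φ a) (Ψ : ElectronState N)
    (J : Fin N → ι × Fin 2) :
    cT φ Ψ J = cI u (Ψ.amp fun i => (J i).2) (fun i => Sum.inl (J i).1) := by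
  unfold cT cI coef prodFun tp
  simp only [hul]

end onebody

/-- an orthonormal family extends to a basis -/
theorem exists_ext {ι : Type} [Fintype ι] [DecidableEq ι] {φ : ι → R3 → ℂ} {e : ι → ℝ} {einf : ℝ}
    (H : OneGap φ e einf) : ∃ (κ : Type) (_ : Countable κ) (u : ι ⊕ κ → R3 → ℂ),
      IsONB volume u ∧ ∀ a, u (Sum.inl a) = φ a := by
  obtain ⟨κ, hκ, u, hu, hul⟩ := exists_isONB_extension (μ := (volume : Measure R3))
    (fun i => φ ((Fintype.equivFin ι).symm i)) (fun i => H.mem _)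
    (fun i => by rw [H.on, if_pos rfl])
    (fun i j hij => by rw [H.on, if_neg fun h => hij ((Fintype.equivFin ι).symm.injective h)])
  refine ⟨κ, hκ, fun b => u (Equiv.sumCongr (Fintype.equivFin ι) (Equiv.refl κ) b),
    hu.reindex _, fun a => ?_⟩
  simp [hul]

/-! ### closed orbitals and an open shell -/

section comb

variable {K V : Type} [Fintype K] [DecidableEq K] [Fintype V] [DecidableEq V] {κ : Type}

/-- the energies of the orbitals: closed orbitals `K`, one open shell `V` -/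
def eKV (e : K → ℝ) (ev : ℝ) : K ⊕ V → ℝ := Sum.elim e fun _ => ev

/-- the ground state energy of the noninteracting system with the closed orbitals doubly occupied -/
def E0 (N : ℕ) (e : K → ℝ) (ev : ℝ) : ℝ := 2 * ∑ k, e k + ((N : ℝ) - 2 * Fintype.card K) * ev

/-- ground pattern: all closed spin-orbitals occur, and all other indices are in the open shell -/
def Good {N : ℕ} (I : Fin N → (K ⊕ V) ⊕ κ) (s : Fin N → Fin 2) : Prop :=
  (∀ (k : K) (t : Fin 2), ∃ i, I i = Sum.inl (Sum.inl k) ∧ s i = t) ∧ ∀ i, (I i).isRight = false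

open Classical in
theorem comb {N : ℕ} {e : K → ℝ} {ev einf g : ℝ} (hg : 0 ≤ g) (he : ∀ k, e k + g ≤ ev)
    (hinf : ev + g ≤ einf) (I : Fin N → (K ⊕ V) ⊕ κ) (s : Fin N → Fin 2)
    (hinj : Function.Injective fun i => (I i, s i)) :
    E0 N e ev + g - g * (if Good I s then 1 else 0) ≤
      ∑ i, wt (eKV (V := V) e ev) einf (I i) := by
  -- the number of occurrences of a closed spin-orbital
  let A : K → Fin 2 → ℝ := fun k t => ∑ i, if I i = Sum.inl (Sum.inl k) ∧ s i = t then (1 : ℝ) else 0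
  let C : ℝ := ∑ i, if (I i).isRight = true then (1 : ℝ) else 0
  have hC0 : 0 ≤ C := Finset.sum_nonneg fun i _ => by split_ifs <;> norm_num
  have hA1 : ∀ k t, A k t ≤ 1 := by
    intro k t
    by_cases h : ∃ i, I i = Sum.inl (Sum.inl k) ∧ s i = t
    · obtain ⟨i, hi⟩ := h
      have : A k t = 1 := by
        show ∑ i, (if I i = Sum.inl (Sum.inl k) ∧ s i = t then (1 : ℝ) else 0) = 1
        rw [Finset.sum_eq_single i]
        · rw [if_pos hi]
        · intro j _ hji
          rw [if_neg]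
          intro hj
          exact hji (hinj (Prod.ext (hj.1.trans hi.1.symm) (hj.2.trans hi.2.symm)))
        · intro h; exact (h (Finset.mem_univ _)).elim
      rw [this]
    · have : A k t = 0 := by
        show ∑ i, (if I i = Sum.inl (Sum.inl k) ∧ s i = t then (1 : ℝ) else 0) = 0
        refine Finset.sum_eq_zero fun i _ => ?_
        rw [if_neg]
        exact fun hi => h ⟨i, hi⟩
      rw [this]; norm_num
  have hA0 : ∀ k t, (¬ ∃ i, I i = Sum.inl (Sum.inl k) ∧ s i = t) → A k t = 0 := by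
    intro k t h
    show ∑ i, (if I i = Sum.inl (Sum.inl k) ∧ s i = t then (1 : ℝ) else 0) = 0
    refine Finset.sum_eq_zero fun i _ => ?_
    rw [if_neg]
    exact fun hi => h ⟨i, hi⟩
  -- decomposition of the weight
  have hw : ∀ i, wt (eKV (V := V) e ev) einf (I i) = ev +
      (∑ k, ∑ t : Fin 2, (if I i = Sum.inl (Sum.inl k) ∧ s i = t then (1 : ℝ) else 0) * (e k - ev)) +
      (if (I i).isRight = true then (1 : ℝ) else 0) * (einf - ev) := by
    intro i
    rcases h : I i with (k | v) | x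
    · have h1 : ∀ k' : K, ∑ t : Fin 2, (if (Sum.inl (Sum.inl k) : (K ⊕ V) ⊕ κ) =
          Sum.inl (Sum.inl k') ∧ s i = t then (1 : ℝ) else 0) * (e k' - ev) =
          if k = k' then e k' - ev else 0 := by
        intro k'
        by_cases hk : k = k'
        · subst hk
          simp
        · simp [hk]
      rw [Finset.sum_congr rfl fun k' _ => h1 k']
      simp [wt, eKV]
    · simp [wt, eKV]
    · simp [wt]
  have hsum : ∑ i, wt (eKV (V := V) e ev) einf (I i) = N * ev +
      (∑ k, ∑ t : Fin 2, A k t * (e k - ev)) + C * (einf - ev) := by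
    rw [Finset.sum_congr rfl fun i _ => hw i, Finset.sum_add_distrib, Finset.sum_add_distrib,
      Finset.sum_const, Finset.card_univ, Fintype.card_fin, nsmul_eq_mul, ← Finset.sum_mul]
    congr 2
    rw [Finset.sum_comm]
    refine Finset.sum_congr rfl fun k _ => ?_
    rw [Finset.sum_comm]
    refine Finset.sum_congr rfl fun t _ => ?_
    rw [← Finset.sum_mul]
  have hE : E0 N e ev = N * ev + ∑ k, ∑ t : Fin 2, (1 : ℝ) * (e k - ev) := by
    unfold E0
    simp only [one_mul, Finset.sum_const, Finset.card_univ, Fintype.card_fin, nsmul_eq_mul,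
      ← Finset.mul_sum, Finset.sum_sub_distrib]
    push_cast
    ring
  have hdiff : ∑ k, ∑ t : Fin 2, A k t * (e k - ev) - ∑ k, ∑ t : Fin 2, (1 : ℝ) * (e k - ev) =
      ∑ k, ∑ t : Fin 2, (1 - A k t) * (ev - e k) := by
    rw [← Finset.sum_sub_distrib]
    refine Finset.sum_congr rfl fun k _ => ?_
    rw [← Finset.sum_sub_distrib]
    exact Finset.sum_congr rfl fun t _ => by ring
  have hterm : ∀ k t, 0 ≤ (1 - A k t) * (ev - e k) := fun k t =>
    mul_nonneg (by linarith [hA1 k t]) (by linarith [he k])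
  have hS0 : 0 ≤ ∑ k, ∑ t : Fin 2, (1 - A k t) * (ev - e k) :=
    Finset.sum_nonneg fun k _ => Finset.sum_nonneg fun t _ => hterm k t
  have hCg : C * g ≤ C * (einf - ev) := mul_le_mul_of_nonneg_left (by linarith) hC0
  rw [hsum, hE]
  by_cases hgood : Good I s
  · rw [if_pos hgood]
    have : 0 ≤ C * g := mul_nonneg hC0 hg
    linarith
  · rw [if_neg hgood]
    have key : g ≤ (∑ k, ∑ t : Fin 2, (1 - A k t) * (ev - e k)) + C * g := by
      by_cases h1 : ∀ (k : K) (t : Fin 2), ∃ i, I i = Sum.inl (Sum.inl k) ∧ s i = t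
      · have h2 : ∃ i, (I i).isRight = true := by
          by_contra h
          push Not at h
          exact hgood ⟨h1, fun i => by simpa using h i⟩
        obtain ⟨i, hi⟩ := h2
        have h3 : 1 ≤ C := by
          have := Finset.single_le_sum (f := fun i => if (I i).isRight = true then (1 : ℝ) else 0)
            (fun i _ => by split_ifs <;> norm_num) (Finset.mem_univ i)
          simp only [hi, if_true] at this
          exact this
        have := mul_le_mul_of_nonneg_right h3 hg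
        linarith
      · push Not at h1
        obtain ⟨k, t, hkt⟩ := h1
        have h2 : A k t = 0 := hA0 k t (by push Not; exact hkt)
        have h3 : (1 - A k t) * (ev - e k) ≤ ∑ t : Fin 2, (1 - A k t) * (ev - e k) :=
          Finset.single_le_sum (f := fun t => (1 - A k t) * (ev - e k)) (fun t _ => hterm k t)
            (Finset.mem_univ t)
        have h4 : ∑ t : Fin 2, (1 - A k t) * (ev - e k) ≤
            ∑ k, ∑ t : Fin 2, (1 - A k t) * (ev - e k) :=
          Finset.single_le_sum (f := fun k => ∑ t : Fin 2, (1 - A k t) * (ev - e k))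
            (fun k _ => Finset.sum_nonneg fun t _ => hterm k t) (Finset.mem_univ k)
        rw [h2] at h3
        have h5 := he k
        have : 0 ≤ C * g := mul_nonneg hC0 hg
        linarith
    linarith

end comb

/-! ### the gap -/

section main

variable {K V : Type} [Fintype K] [DecidableEq K] [Fintype V] [DecidableEq V]

/-- the tuples of spin-orbitals which contain all closed spin-orbitals -/
def coreSet (K V : Type) [Fintype K] [DecidableEq K] [Fintype V] [DecidableEq V] (N : ℕ) :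
    Finset (Fin N → (K ⊕ V) × Fin 2) :=
  Finset.univ.filter fun J => ∀ (k : K) (t : Fin 2), ∃ i, J i = (Sum.inl k, t)

/-- squared norm of the projection on the noninteracting ground space -/
def coreSq {N : ℕ} (u : K ⊕ V → R3 → ℂ) (Ψ : ElectronState N) : ℝ :=
  ∑ J ∈ coreSet K V N, ‖cT u Ψ J‖ ^ 2

variable {κ : Type} [Countable κ] {u : (K ⊕ V) ⊕ κ → R3 → ℂ} {φ : K ⊕ V → R3 → ℂ}

open Classical in
theorem summable_good (hu : IsONB volume u) {N : ℕ} (Ψ : ElectronState N) (s : Fin N → Fin 2) :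
    Summable (fun I : Fin N → (K ⊕ V) ⊕ κ =>
      if Good I s then ‖cI u (Ψ.amp s) I‖ ^ 2 else 0) := by
  have hS := summable_cI hu (Ψ.amp_memLp s : MemLp (Ψ.amp s) 2 (volume : Measure (Conf N)))
  apply Summable.of_nonneg_of_le _ _ hS.summable
  · intro I; split_ifs <;> positivity
  · intro I; split_ifs
    · exact le_rfl
    · positivity

open Classical in
theorem comp_bound {e : K → ℝ} {ev einf g : ℝ} (hg : 0 ≤ g) (he : ∀ k, e k + g ≤ ev)
    (hinf : ev + g ≤ einf) (hu : IsONB volume u) {N : ℕ} (Ψ : ElectronState N)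
    (s : Fin N → Fin 2) :
    (E0 N e ev + g) * (∫ x, ‖Ψ.amp s x‖ ^ 2) - g *
      ∑' I, (if Good I s then ‖cI u (Ψ.amp s) I‖ ^ 2 else 0) ≤
      ∑ i, ∑' I, wt (eKV (V := V) e ev) einf (I i) * ‖cI u (Ψ.amp s) I‖ ^ 2 := by
  have hf : MemLp (Ψ.amp s) 2 (volume : Measure (Conf N)) := Ψ.amp_memLp s
  have hS := summable_cI hu hf
  have hG := summable_good (K := K) (V := V) hu Ψ s
  rw [← Summable.tsum_finsetSum (fun i _ => summable_wt_cI hu _ _ hf i), ← hS.tsum_eq,
    ← tsum_mul_left, ← tsum_mul_left, ← (hS.summable.mul_left _).tsum_sub (hG.mul_left _)]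
  apply ((hS.summable.mul_left _).sub (hG.mul_left _)).tsum_le_tsum
  · intro I
    rw [← Finset.sum_mul]
    by_cases hinj : Function.Injective fun i => (I i, s i)
    · have h1 := comb hg he hinf I s hinj
      have h2 : 0 ≤ ‖cI u (Ψ.amp s) I‖ ^ 2 := sq_nonneg _
      have h3 := mul_le_mul_of_nonneg_right h1 h2
      refine le_trans (le_of_eq ?_) h3
      split_ifs <;> ring
    · rw [cI_eq_zero Ψ s I hinj]
      simp
  · exact summable_sum fun i _ => summable_wt_cI hu _ _ hf i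

open Classical in
/-- the finite sum over the ground pattern -/
theorem tsum_good (hul : ∀ a, u (Sum.inl a) = φ a) {N : ℕ} (Ψ : ElectronState N) :
    ∑ s, ∑' I : Fin N → (K ⊕ V) ⊕ κ, (if Good I s then ‖cI u (Ψ.amp s) I‖ ^ 2 else 0) =
      coreSq φ Ψ := by
  have h1 : ∀ s : Fin N → Fin 2, ∑' I : Fin N → (K ⊕ V) ⊕ κ,
      (if Good I s then ‖cI u (Ψ.amp s) I‖ ^ 2 else 0) =
      ∑ A : Fin N → K ⊕ V, if (∀ (k : K) (t : Fin 2), ∃ i, A i = Sum.inl k ∧ s i = t) then
        ‖cI u (Ψ.amp s) (fun i => Sum.inl (A i))‖ ^ 2 else 0 := by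
    intro s
    have hinj : Function.Injective (fun (A : Fin N → K ⊕ V) (i : Fin N) =>
        (Sum.inl (A i) : (K ⊕ V) ⊕ κ)) := by
      intro A B hAB
      funext i
      exact Sum.inl_injective (congrFun hAB i)
    have hsupp : Function.support (fun I : Fin N → (K ⊕ V) ⊕ κ =>
        (if Good I s then ‖cI u (Ψ.amp s) I‖ ^ 2 else 0)) ⊆
        Set.range (fun (A : Fin N → K ⊕ V) (i : Fin N) => (Sum.inl (A i) : (K ⊕ V) ⊕ κ)) := by
      intro I hI
      rw [Function.mem_support] at hI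
      have hg : Good I s := by
        by_contra hg
        exact hI (if_neg hg)
      have h2 : ∀ i, ∃ a, I i = Sum.inl a := by
        intro i
        have := hg.2 i
        rcases hIi : I i with a | k
        · exact ⟨a, rfl⟩
        · rw [hIi] at this; simp at this
      choose A hA using h2
      exact ⟨A, funext fun i => (hA i).symm⟩
    rw [← hinj.tsum_eq hsupp, tsum_fintype]
    refine Finset.sum_congr rfl fun A _ => ?_
    have h3 : Good (fun i => (Sum.inl (A i) : (K ⊕ V) ⊕ κ)) s ↔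
        ∀ (k : K) (t : Fin 2), ∃ i, A i = Sum.inl k ∧ s i = t := by
      unfold Good
      simp
    simp only [h3]
  simp only [h1]
  unfold coreSq coreSet
  rw [Finset.sum_filter]
  rw [← (Equiv.arrowProdEquivProdArrow (Fin N) (fun _ => K ⊕ V) (fun _ => Fin 2)).symm.sum_comp]
  rw [Fintype.sum_prod_type]
  rw [Finset.sum_comm]
  refine Finset.sum_congr rfl fun A _ => ?_
  refine Finset.sum_congr rfl fun s _ => ?_
  rw [cT_eq hul]
  have h4 : (∀ (k : K) (t : Fin 2), ∃ i,
      (Equiv.arrowProdEquivProdArrow (Fin N) (fun _ => K ⊕ V) (fun _ => Fin 2)).symm (A, s) i =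
        (Sum.inl k, t)) ↔ ∀ (k : K) (t : Fin 2), ∃ i, A i = Sum.inl k ∧ s i = t := by
    simp only [Equiv.arrowProdEquivProdArrow, Equiv.coe_fn_symm_mk, Prod.mk.injEq]
  simp only [h4]
  rfl

end main

variable {K V : Type} [Fintype K] [DecidableEq K] [Fintype V] [DecidableEq V]
  {φ : K ⊕ V → R3 → ℂ} {e : K → ℝ} {ev einf g : ℝ}

/-- the energy of a state in the noninteracting atom as a sum over the electrons -/
theorem energy_pot0 {N : ℕ} (Ψ : ElectronState N) :
    energy (pot 0) Ψ = ∑ s, ∑ i, ((1 / 2) * (∑ k, ∫ x, ‖Ψ.grad s i k x‖ ^ 2) -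
      ∫ x, ‖x i‖⁻¹ * ‖Ψ.amp s x‖ ^ 2) := by
  unfold energy
  simp only [intR_eq]
  rw [Finset.mul_sum, ← Finset.sum_add_distrib]
  refine Finset.sum_congr rfl fun s _ => ?_
  rw [Finset.sum_sub_distrib, Finset.mul_sum]
  have h1 : ∫ x, pot 0 x * ‖Ψ.amp s x‖ ^ 2 = ∑ i, ∫ x, -(‖x i‖⁻¹ * ‖Ψ.amp s x‖ ^ 2) := by
    have hneg : ∀ i ∈ Finset.univ, Integrable (fun x : Conf N => -(‖x i‖⁻¹ * ‖Ψ.amp s x‖ ^ 2)) :=
      fun i _ => (integrable_inv_norm Ψ s i).neg
    rw [← integral_finsetSum _ hneg]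
    congr 1
    funext x
    unfold pot
    rw [zero_mul, add_zero, Finset.sum_mul]
    refine Finset.sum_congr rfl fun i _ => ?_
    rw [one_div]; ring
  rw [h1]
  simp only [integral_neg, Finset.sum_neg_distrib]
  ring

/-- **the gap of the noninteracting atom with `N` electrons.** -/
theorem gapN (hg : 0 ≤ g) (he : ∀ k, e k + g ≤ ev) (hinf : ev + g ≤ einf)
    (H : OneGap φ (eKV e ev) einf) {N : ℕ} (Ψ : ElectronState N) :
    (E0 N e ev + g) * normSq Ψ - g * coreSq φ Ψ ≤ energy (pot 0) Ψ := by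
  classical
  obtain ⟨κ, hκ, u, hu, hul⟩ := exists_ext H
  rw [energy_pot0]
  have h2 : ∀ s i, ∑' I, wt (eKV (V := V) e ev) einf (I i) * ‖cI u (Ψ.amp s) I‖ ^ 2 ≤
      (1 / 2) * (∑ k, ∫ x, ‖Ψ.grad s i k x‖ ^ 2) - ∫ x, ‖x i‖⁻¹ * ‖Ψ.amp s x‖ ^ 2 := by
    intro s i
    cases N with
    | zero => exact i.elim0
    | succ n =>
      exact electron_ineq H hu hul i (Ψ.amp_memLp s) (fun k => Ψ.grad_memLp s i k)
        (fun k => isWeakDeriv_iff.1 (Ψ.grad_weak s i k)) (integrable_inv_norm Ψ s i)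
  have h3 : ∑ s, ((E0 N e ev + g) * (∫ x, ‖Ψ.amp s x‖ ^ 2) - g *
      ∑' I, (if Good I s then ‖cI u (Ψ.amp s) I‖ ^ 2 else 0)) ≤
      ∑ s, ∑ i, ((1 / 2) * (∑ k, ∫ x, ‖Ψ.grad s i k x‖ ^ 2) -
      ∫ x, ‖x i‖⁻¹ * ‖Ψ.amp s x‖ ^ 2) :=
    Finset.sum_le_sum fun s _ => (comp_bound hg he hinf hu Ψ s).trans
      (Finset.sum_le_sum fun i _ => h2 s i)
  refine le_trans (le_of_eq ?_) h3
  rw [Finset.sum_sub_distrib, ← Finset.mul_sum, ← Finset.mul_sum, tsum_good hul Ψ]
  rfl

/-- Bessel: the projection does not increase the norm. -/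
theorem coreSq_le {e : K ⊕ V → ℝ} (H : OneGap φ e einf) {N : ℕ} (Ψ : ElectronState N) :
    coreSq φ Ψ ≤ normSq Ψ := by
  classical
  obtain ⟨κ, hκ, u, hu, hul⟩ := exists_ext H
  rw [← tsum_good hul Ψ]
  unfold normSq
  refine Finset.sum_le_sum fun s _ => ?_
  have hf : MemLp (Ψ.amp s) 2 (volume : Measure (Conf N)) := Ψ.amp_memLp s
  have hS := summable_cI hu hf
  rw [intR_eq, ← hS.tsum_eq]
  have hle : ∀ I, (if Good I s then ‖cI u (Ψ.amp s) I‖ ^ 2 else 0) ≤ ‖cI u (Ψ.amp s) I‖ ^ 2 := by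
    intro I; split_ifs
    · exact le_rfl
    · positivity
  exact (summable_good (K := K) (V := V) hu Ψ s).tsum_le_tsum hle hS.summable

theorem coreSq_nonneg {N : ℕ} (Ψ : ElectronState N) : 0 ≤ coreSq φ Ψ :=
  Finset.sum_nonneg fun _ _ => sq_nonneg _

end

end Vale.Agent.P370.H365
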