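import Vale.Agent.P370.H365.QMA
import Vale.Agent.P370.H195.Compose

/-!
The two halves of line Q together give QMA-hardness.
-/

namespace Vale.Agent.P370.H365

/-- If every promise problem of QMA reduces to HEIS and HEIS reduces to the electronic problem, the
electronic problem is QMA-hard. -/
theorem hard_of (h₂ : Heis.ToContStmt) (h₁ : ∀ A ∈ classQMA, Heis.ReducesTo A.1 A.2) :
    ∃ c : ℕ, 1 ≤ c ∧ QMAHard (P370.Yes c) (P370.No c) := by
  obtain ⟨c, hc, h⟩ := H195.exists_reduction h₂
  exact ⟨c, hc, fun A hA => h _ _ (h₁ A hA)⟩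

end Vale.Agent.P370.H365
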