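import Vale.Agent.P370.Defs

/-!
Quantum circuits over the gate set Hadamard, T, controlled NOT, the class QMA of promise problems,
and QMA-hardness of promise problems about instances of the electronic structure problem.
-/

namespace Vale.Agent.P370

open Vale.Agent.P333 (pairW listW PolyTime)

/-! ### Quantum circuits -/

/-- The gates: the Hadamard gate and the T gate on the qubit `i`, the controlled NOT with control
`i` and target `j`. -/
inductive Gate
  | H (i : ℕ)
  | T (i : ℕ)
  | CNOT (i j : ℕ)

/-- The gate acts on existing qubits (there are `n` qubits), the controlled NOT on two different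
ones. -/
def Gate.WF (n : ℕ) : Gate → Prop
  | .H i => i < n
  | .T i => i < n
  | .CNOT i j => i < n ∧ j < n ∧ i ≠ j

/-- A quantum verification circuit: the number of witness qubits (these are the first ones), the
number of ancilla qubits (initially in the state `0`), the list of the gates in the order of their
application. The answer is the result of the measurement of the qubit number `0` at the end. -/
structure Circuit where
  /-- number of witness qubits -/
  wit : ℕ
  /-- number of ancilla qubits -/
  anc : ℕ
  /-- the gates, the first one is applied first -/
  gates : List Gate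

/-- Well-formed circuits: there is at least one qubit and the gates act on existing qubits. -/
def Circuit.WF (C : Circuit) : Prop :=
  1 ≤ C.wit + C.anc ∧ ∀ g ∈ C.gates, g.WF (C.wit + C.anc)

/-- The value of the qubit number `i` in the basis state `s` of `n` qubits. -/
def bitAt {n : ℕ} (s : Fin n → Bool) (i : ℕ) : Bool := if h : i < n then s ⟨i, h⟩ else false

/-- The basis state `s` with the value of the qubit number `i` replaced by `b`. -/
def setAt {n : ℕ} (s : Fin n → Bool) (i : ℕ) (b : Bool) : Fin n → Bool :=
  fun k => if (k : ℕ) = i then b else s k

/-- The action of a gate on the vectors of amplitudes of `n` qubits. -/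
noncomputable def Gate.apply {n : ℕ} : Gate → ((Fin n → Bool) → ℂ) → (Fin n → Bool) → ℂ
  | .H i, ψ, s =>
      (ψ (setAt s i false) + (if bitAt s i then -1 else 1) * ψ (setAt s i true)) / (√2 : ℝ)
  | .T i, ψ, s => (if bitAt s i then Complex.exp (Real.pi / 4 * Complex.I) else 1) * ψ s
  | .CNOT i j, ψ, s => ψ (setAt s j (xor (bitAt s i) (bitAt s j)))

/-- The action of a list of gates; the first gate is applied first. -/
noncomputable def runGates {n : ℕ} (gs : List Gate) (ψ : (Fin n → Bool) → ℂ) :
    (Fin n → Bool) → ℂ :=
  gs.foldl (fun φ g => g.apply φ) ψ

/-- The initial vector of amplitudes: the witness on the first qubits, all ancillas `0`. -/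
def Circuit.input (C : Circuit) (w : (Fin C.wit → Bool) → ℂ) :
    (Fin (C.wit + C.anc) → Bool) → ℂ :=
  fun s => if ∀ k : Fin C.anc, s (Fin.natAdd C.wit k) = false then
    w fun k => s (Fin.castAdd C.anc k) else 0

/-- The probability that the measurement of the qubit number `0` at the end gives `1`, for the
witness `w`. -/
noncomputable def Circuit.accept (C : Circuit) (w : (Fin C.wit → Bool) → ℂ) : ℝ :=
  ∑ s, if bitAt s 0 = true then ‖runGates C.gates (C.input w) s‖ ^ 2 else 0

/-- Witness states: unit vectors. -/
def IsState {n : ℕ} (w : (Fin n → Bool) → ℂ) : Prop := ∑ s, ‖w s‖ ^ 2 = 1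

/-! ### The class QMA -/

/-- The code of a gate. -/
def gateW : Gate → List Bool
  | .H i => pairW (Nat.bits 0) (pairW (Nat.bits i) (Nat.bits 0))
  | .T i => pairW (Nat.bits 1) (pairW (Nat.bits i) (Nat.bits 0))
  | .CNOT i j => pairW (Nat.bits 2) (pairW (Nat.bits i) (Nat.bits j))

/-- The code of a circuit; the numbers of witness and ancilla qubits are given in unary. -/
def circuitW (C : Circuit) : List Bool :=
  pairW (List.replicate C.wit true) (pairW (List.replicate C.anc true) (listW gateW C.gates))

/-- The class QMA of promise problems, given by the sets of YES and NO instances: a polynomial time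
Turing machine computes from the input `x` a verification circuit (so the witness has polynomial
size); some witness is accepted with probability at least `2/3` if `x` is a YES instance, every
witness is accepted with probability at most `1/3` if `x` is a NO instance. -/
def classQMA : Set (Set (List Bool) × Set (List Bool)) :=
  {A | Disjoint A.1 A.2 ∧ ∃ V : List Bool → Circuit, PolyTime (fun w : List Bool => w) circuitW V ∧
    (∀ x, (V x).WF) ∧
    (∀ x ∈ A.1, ∃ w : (Fin (V x).wit → Bool) → ℂ, IsState w ∧ 2 / 3 ≤ (V x).accept w) ∧
    (∀ x ∈ A.2, ∀ w : (Fin (V x).wit → Bool) → ℂ, IsState w → (V x).accept w ≤ 1 / 3)}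

/-- A promise problem about instances of the electronic structure problem is QMA-hard: every
promise problem in QMA reduces to it by a polynomial time many-one reduction. -/
def QMAHard (yes no : Set Instance) : Prop :=
  ∀ A ∈ classQMA, ∃ f : List Bool → Instance, PolyTime (fun w : List Bool => w) instW f ∧
    (∀ x ∈ A.1, f x ∈ yes) ∧ (∀ x ∈ A.2, f x ∈ no)

end Vale.Agent.P370
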