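import Vale.Agent.P370.H365.QMA
import Vale.Agent.P370.H220.ClockDefs

/-!
Exact simulation of circuits over Hadamard, T, controlled NOT by the real circuits of the branching
clock (`H220.Step`), with one extra qubit which carries the real and the imaginary part.
-/

namespace Vale.Agent.P370.H365

open H220 (flp sg rop Step run acc AncZero sq)

/-- Codes of steps: the control, the two optional reflections (site, angle). -/
abbrev SCode := ℕ × Option (ℕ × ℕ) × Option (ℕ × ℕ)

/-- Controlled rotation by the angle `2 (k - l) π / 8`, control `q`, target `s`. -/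
def crot (q s k l : ℕ) : List SCode :=
  [(q, some (s, k), some (s, l)), (q, some (s, l), none), (q, some (s, k), none)]

/-- The simulation of a gate; the number of the extra qubit is `r`. -/
def simGate (r : ℕ) : Gate → List SCode
  | .H i => [(r, some (i, 2), none)]
  | .T i => crot i r 1 0
  | .CNOT i j => crot j r 2 0 ++ crot i j 2 0 ++ crot i r 2 0 ++ crot j r 0 2

/-- The simulation of a circuit. -/
def simGates (r : ℕ) (gs : List Gate) : List SCode := gs.flatMap (simGate r)

/-- The site number `i` of `n + 1` sites. -/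
def fi (n i : ℕ) : Fin (n + 1) := ⟨min i n, by omega⟩

/-- Decoding of a step. -/
def toStep (n : ℕ) (g : SCode) : Step (Fin (n + 1)) :=
  ⟨fi n g.1, g.2.1.map fun p => (fi n p.1, p.2), g.2.2.map fun p => (fi n p.1, p.2)⟩

/-- Validity of the code of a step: the sites exist, the reflections do not act on the control. -/
def SOK (n : ℕ) (g : SCode) : Prop :=
  g.1 ≤ n ∧ (∀ p, g.2.1 = some p → p.1 ≤ n ∧ p.1 ≠ g.1) ∧
    ∀ p, g.2.2 = some p → p.1 ≤ n ∧ p.1 ≠ g.1

theorem SOK.wf {n : ℕ} {g : SCode} (h : SOK n g) : (toStep n g).WF := by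
  obtain ⟨f, u, v⟩ := g
  obtain ⟨h1, h2, h3⟩ := h
  simp only at h1 h2 h3
  constructor
  · intro s k hs
    cases u with
    | none => simp [toStep] at hs
    | some p =>
      simp only [toStep, Option.map_some, Option.some.injEq, Prod.mk.injEq] at hs
      obtain ⟨rfl, -⟩ := hs
      have := h2 p rfl
      intro h
      have h' := congrArg Fin.val h
      simp only [fi, toStep] at h'
      omega
  · intro s k hs
    cases v with
    | none => simp [toStep] at hs
    | some p =>
      simp only [toStep, Option.map_some, Option.some.injEq, Prod.mk.injEq] at hs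
      obtain ⟨rfl, -⟩ := hs
      have := h3 p rfl
      intro h
      have h' := congrArg Fin.val h
      simp only [fi, toStep] at h'
      omega

theorem crot_ok {n q s k l : ℕ} (hq : q ≤ n) (hs : s ≤ n) (h : s ≠ q) :
    ∀ g ∈ crot q s k l, SOK n g := by
  intro g hg
  simp only [crot, List.mem_cons, List.not_mem_nil, or_false] at hg
  rcases hg with rfl | rfl | rfl <;> refine ⟨hq, ?_, ?_⟩ <;> intro p hp <;>
    simp only [Option.some.injEq, reduceCtorEq] at hp <;> subst hp <;> exact ⟨hs, h⟩

theorem simGate_ok {n : ℕ} {g : Gate} (hg : g.WF n) : ∀ c ∈ simGate n g, SOK n c := by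
  cases g with
  | H i =>
    have hi : i < n := hg
    intro c hc
    simp only [simGate, List.mem_singleton] at hc
    subst hc
    refine ⟨le_rfl, ?_, ?_⟩ <;> intro p hp <;>
      simp only [Option.some.injEq, reduceCtorEq] at hp
    subst hp
    exact ⟨hi.le, hi.ne⟩
  | T i =>
    have hi : i < n := hg
    exact crot_ok hi.le le_rfl hi.ne'
  | CNOT i j =>
    obtain ⟨hi, hj, hij⟩ := hg
    intro c hc
    simp only [simGate, List.mem_append] at hc
    rcases hc with ((hc | hc) | hc) | hc
    · exact crot_ok hj.le le_rfl hj.ne' c hc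
    · exact crot_ok hi.le hj.le hij.symm c hc
    · exact crot_ok hi.le le_rfl hi.ne' c hc
    · exact crot_ok hj.le le_rfl hj.ne' c hc

theorem simGates_ok {n : ℕ} {gs : List Gate} (hg : ∀ g ∈ gs, g.WF n) :
    ∀ c ∈ simGates n gs, SOK n c := by
  intro c hc
  simp only [simGates, List.mem_flatMap] at hc
  obtain ⟨g, hg', hc⟩ := hc
  exact simGate_ok (hg g hg') c hc

/-! ### Rotations -/

section rot

variable {ι : Type*} [DecidableEq ι]

/-- Rotation of the site `s` by the angle `t`. -/
noncomputable def rotR (s : ι) (t : ℝ) (φ : (ι → Bool) → ℝ) (x : ι → Bool) : ℝ :=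
  Real.cos t * φ x - sg (x s) * (Real.sin t * φ (flp s x))

theorem sg_sq (b : Bool) : sg b * sg b = 1 := by cases b <;> simp [sg]

theorem sg_not (b : Bool) : sg (!b) = -sg b := by cases b <;> simp [sg]

theorem flp_same (s : ι) (x : ι → Bool) : flp s x s = !x s := by simp [flp]

theorem flp_ne {s q : ι} (h : q ≠ s) (x : ι → Bool) : flp s x q = x q := by simp [flp, h]

theorem flp_flp (s : ι) (x : ι → Bool) : flp s (flp s x) = x := by
  funext k
  by_cases h : k = s
  · subst h; simp [flp]
  · simp [flp, h]

theorem rop_rop (s : ι) (k l : ℕ) (φ : (ι → Bool) → ℝ) :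
    rop (some (s, l)) (rop (some (s, k)) φ) = rotR s ((l - k) * Real.pi / 8) φ := by
  funext x
  have e : ((l : ℝ) - k) * Real.pi / 8 = l * Real.pi / 8 - k * Real.pi / 8 := by ring
  simp only [rop, rotR, flp_same, sg_not, flp_flp]
  rw [e, Real.cos_sub, Real.sin_sub]
  linear_combination (Real.cos (l * Real.pi / 8) * Real.cos (k * Real.pi / 8) * φ x) *
    sg_sq (x s)

theorem rotR_rotR (s : ι) (t u : ℝ) (φ : (ι → Bool) → ℝ) :
    rotR s t (rotR s u φ) = rotR s (t + u) φ := by
  funext x
  simp only [rotR, flp_same, sg_not, flp_flp]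
  rw [Real.cos_add, Real.sin_add]
  linear_combination (-(Real.sin t * Real.sin u * φ x)) * sg_sq (x s)

theorem rotR_zero (s : ι) (φ : (ι → Bool) → ℝ) : rotR s 0 φ = φ := by
  funext x
  simp [rotR]

/-- Controlled rotation. -/
noncomputable def crotR (q s : ι) (t : ℝ) (φ : (ι → Bool) → ℝ) (x : ι → Bool) : ℝ :=
  if x q = true then rotR s t φ x else φ x

theorem run_three {q s : ι} (h : q ≠ s) (k l : ℕ) (φ : (ι → Bool) → ℝ) :
    run [⟨q, some (s, k), some (s, l)⟩, ⟨q, some (s, l), none⟩, ⟨q, some (s, k), none⟩] φ =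
      crotR q s (2 * (k - l) * Real.pi / 8) φ := by
  have h1 : ∀ (w : Option (ι × ℕ)) (χ : (ι → Bool) → ℝ), (⟨q, w, none⟩ : Step ι).op χ = rop w χ := by
    intro w χ
    funext x
    simp only [Step.op]
    have : ∀ χ : (ι → Bool) → ℝ, rop none χ = χ := fun _ => rfl
    simp only [this]
    split_ifs <;> rfl
  simp only [run, List.foldl_cons, List.foldl_nil, h1, rop_rop]
  funext x
  simp only [crotR]
  rw [rotR]
  simp only [Step.op, rop_rop, flp_ne h]
  split_ifs with hx
  · rw [← rotR.eq_1 s _ _ x, rotR_rotR]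
    congr 1
    ring
  · rw [← rotR.eq_1 s _ _ x, rotR_rotR]
    have : ((k : ℝ) - l) * Real.pi / 8 + (l - k) * Real.pi / 8 = 0 := by ring
    rw [this, rotR_zero]

end rot

end Vale.Agent.P370.H365
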