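import Vale.Agent.P370.H365.Sim

/-!
Correctness of the simulation: real and imaginary parts as the values of the extra qubit.
-/

namespace Vale.Agent.P370.H365

open H220 (flp sg rop Step run acc AncZero sq)

variable {n : ℕ}

/-! ### Bits -/

theorem bitAt_eq (x : Fin n → Bool) (i : Fin n) : bitAt x i = x i := by
  simp [bitAt]

theorem bitAt_lt (x : Fin n → Bool) {i : ℕ} (hi : i < n) : bitAt x i = x ⟨i, hi⟩ := by
  simp [bitAt, hi]

theorem setAt_eq (x : Fin n → Bool) {i : ℕ} (hi : i < n) (b : Bool) :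
    setAt x i b = if b = x ⟨i, hi⟩ then x else flp ⟨i, hi⟩ x := by
  funext k
  by_cases h : k = ⟨i, hi⟩
  · subst h
    by_cases hb : b = x ⟨i, hi⟩
    · simp [setAt, ← hb]
    · simp only [setAt, hb, if_true, if_false, flp, Function.update_self]
      cases hx : x ⟨i, hi⟩ <;> cases b <;> simp_all
  · have h' : (k : ℕ) ≠ i := fun e => h (Fin.ext e)
    by_cases hb : b = x ⟨i, hi⟩
    · simp [setAt, h', ← hb]
    · simp [setAt, h', hb, flp, h]

theorem init_flp_last (x : Fin (n + 1) → Bool) :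
    (Fin.init (flp (Fin.last n) x) : Fin n → Bool) = Fin.init x := by
  funext k
  have : k.castSucc ≠ Fin.last n := (Fin.castSucc_lt_last k).ne
  simp [Fin.init, flp, this]

theorem init_flp_castSucc (x : Fin (n + 1) → Bool) (i : Fin n) :
    (Fin.init (flp i.castSucc x) : Fin n → Bool) = flp i (Fin.init x) := by
  funext k
  by_cases h : k = i
  · subst h; simp [Fin.init, flp]
  · simp [Fin.init, flp, h]

theorem flp_castSucc_last (x : Fin (n + 1) → Bool) (i : Fin n) :
    flp i.castSucc x (Fin.last n) = x (Fin.last n) := by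
  have : Fin.last n ≠ i.castSucc := (Fin.castSucc_lt_last i).ne'
  simp [flp, this]

/-! ### Real and imaginary parts -/

/-- Real and imaginary parts as the values of the extra qubit. -/
def toReal (ψ : (Fin n → Bool) → ℂ) (s : Fin (n + 1) → Bool) : ℝ :=
  if s (Fin.last n) = true then (ψ (Fin.init s)).im else (ψ (Fin.init s)).re

/-- The inverse of `toReal`. -/
def ofReal' (φ : (Fin (n + 1) → Bool) → ℝ) (s : Fin n → Bool) : ℂ :=
  ⟨φ (Fin.snoc (α := fun _ => Bool) s false), φ (Fin.snoc (α := fun _ => Bool) s true)⟩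

theorem toReal_ofReal' (φ : (Fin (n + 1) → Bool) → ℝ) : toReal (ofReal' φ) = φ := by
  funext s
  have h : Fin.snoc (α := fun _ => Bool) (Fin.init s) (s (Fin.last n)) = s :=
    Fin.snoc_init_self s
  unfold toReal ofReal'
  cases hs : s (Fin.last n)
  · rw [hs] at h
    simp only [Bool.false_eq_true, if_false]
    rw [h]
  · rw [hs] at h
    simp only [if_true]
    rw [h]

/-- Phase gate. -/
noncomputable def phaseC (q : Fin n) (t : ℝ) (ψ : (Fin n → Bool) → ℂ) (x : Fin n → Bool) : ℂ :=
  (if x q = true then Complex.exp (t * Complex.I) else 1) * ψ x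

/-- Controlled rotation of the amplitudes. -/
noncomputable def crotC (q s : Fin n) (t : ℝ) (ψ : (Fin n → Bool) → ℂ) (x : Fin n → Bool) : ℂ :=
  if x q = true then Real.cos t * ψ x - sg (x s) * (Real.sin t * ψ (flp s x)) else ψ x

theorem crotR_last (q : Fin n) (t : ℝ) (ψ : (Fin n → Bool) → ℂ) :
    crotR q.castSucc (Fin.last n) t (toReal ψ) = toReal (phaseC q t ψ) := by
  funext x
  have e : Complex.exp (t * Complex.I) = ⟨Real.cos t, Real.sin t⟩ := by
    rw [Complex.exp_mul_I]
    apply Complex.ext <;> simp [Complex.cos_ofReal_re, Complex.sin_ofReal_re]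
  simp only [crotR, toReal, phaseC, rotR, init_flp_last, flp_same]
  have hq : (Fin.init x : Fin n → Bool) q = x q.castSucc := rfl
  rw [hq, e]
  cases x q.castSucc <;> cases x (Fin.last n) <;> simp [sg, Complex.mul_re, Complex.mul_im]

theorem crotR_castSucc (q s : Fin n) (t : ℝ) (ψ : (Fin n → Bool) → ℂ) :
    crotR q.castSucc s.castSucc t (toReal ψ) = toReal (crotC q s t ψ) := by
  funext x
  simp only [crotR, toReal, crotC, rotR, init_flp_castSucc, flp_castSucc_last]
  have hq : (Fin.init x : Fin n → Bool) q = x q.castSucc := rfl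
  have hs : (Fin.init x : Fin n → Bool) s = x s.castSucc := rfl
  rw [hq, hs]
  cases x q.castSucc <;> cases x (Fin.last n) <;>
    simp [Complex.mul_re, Complex.mul_im, Complex.sub_re, Complex.sub_im, Complex.cos_ofReal_re,
      Complex.sin_ofReal_re]

theorem rop_had {i : ℕ} (hi : i < n) (ψ : (Fin n → Bool) → ℂ) :
    rop (some ((⟨i, hi⟩ : Fin n).castSucc, 2)) (toReal ψ) = toReal ((Gate.H i).apply ψ) := by
  funext x
  have h2 : (√2 : ℝ) * √2 = 2 := Real.mul_self_sqrt (by norm_num)
  have h0 : (√2 : ℝ) ≠ 0 := by positivity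
  have hc : ((2 : ℕ) : ℝ) * Real.pi / 8 = Real.pi / 4 := by push_cast; ring
  have h3 : √2 / 2 = 1 / √2 := by field_simp; nlinarith
  simp only [rop, hc, Real.cos_pi_div_four, Real.sin_pi_div_four, h3, toReal, init_flp_castSucc,
    flp_castSucc_last, Gate.apply, bitAt_lt _ hi, setAt_eq _ hi]
  have hq : (Fin.init x : Fin n → Bool) ⟨i, hi⟩ = x (⟨i, hi⟩ : Fin n).castSucc := rfl
  rw [hq]
  cases x (⟨i, hi⟩ : Fin n).castSucc <;> cases x (Fin.last n) <;>
    simp [sg, Complex.div_ofReal_re, Complex.div_ofReal_im] <;> ring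

theorem cnot_eq {i j : ℕ} (hi : i < n) (hj : j < n) (hij : i ≠ j) (ψ : (Fin n → Bool) → ℂ) :
    phaseC ⟨j, hj⟩ (-(Real.pi / 2)) (phaseC ⟨i, hi⟩ (Real.pi / 2)
      (crotC ⟨i, hi⟩ ⟨j, hj⟩ (Real.pi / 2) (phaseC ⟨j, hj⟩ (Real.pi / 2) ψ))) =
      (Gate.CNOT i j).apply ψ := by
  funext x
  have hne : (⟨i, hi⟩ : Fin n) ≠ ⟨j, hj⟩ := fun e => hij (congrArg Fin.val e)
  have e1 : Complex.exp ((Real.pi / 2 : ℝ) * Complex.I) = Complex.I := by
    push_cast
    exact Complex.exp_pi_div_two_mul_I
  have e2 : Complex.exp ((-(Real.pi / 2) : ℝ) * Complex.I) = -Complex.I := by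
    push_cast
    rw [neg_mul, Complex.exp_neg, Complex.exp_pi_div_two_mul_I, Complex.inv_I]
  simp only [phaseC, crotC, Gate.apply, bitAt_lt _ hi, bitAt_lt _ hj, setAt_eq _ hj, e1, e2,
    Real.cos_pi_div_two, Real.sin_pi_div_two, flp_same]
  cases hxi : x ⟨i, hi⟩ <;> cases hxj : x ⟨j, hj⟩ <;> simp [sg]
  · linear_combination (-ψ x) * Complex.I_sq
  · linear_combination (-ψ (flp ⟨j, hj⟩ x)) * Complex.I_sq
  · linear_combination (-ψ (flp ⟨j, hj⟩ x)) * Complex.I_sq

/-! ### One gate, many gates -/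

theorem fi_lt {i : ℕ} (hi : i < n) : fi n i = (⟨i, hi⟩ : Fin n).castSucc := by
  apply Fin.ext
  simp [fi, hi.le]

theorem fi_last : fi n n = Fin.last n := by
  apply Fin.ext
  simp [fi]

theorem run_append {ι : Type*} [DecidableEq ι] (L L' : List (Step ι)) (φ : (ι → Bool) → ℝ) :
    run (L ++ L') φ = run L' (run L φ) := by
  simp [run, List.foldl_append]

theorem run_crot_last {i : ℕ} (hi : i < n) (k l : ℕ) (ψ : (Fin n → Bool) → ℂ) :
    run ((crot i n k l).map (toStep n)) (toReal ψ) =
      toReal (phaseC ⟨i, hi⟩ (2 * (k - l) * Real.pi / 8) ψ) := by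
  have h : (⟨i, hi⟩ : Fin n).castSucc ≠ Fin.last n := (Fin.castSucc_lt_last _).ne
  have := run_three h k l (toReal ψ)
  rw [crotR_last] at this
  rw [← this]
  simp only [crot, List.map_cons, List.map_nil, toStep, Option.map_some, Option.map_none,
    fi_lt hi, fi_last]

theorem run_crot {i j : ℕ} (hi : i < n) (hj : j < n) (hij : i ≠ j) (k l : ℕ)
    (ψ : (Fin n → Bool) → ℂ) :
    run ((crot i j k l).map (toStep n)) (toReal ψ) =
      toReal (crotC ⟨i, hi⟩ ⟨j, hj⟩ (2 * (k - l) * Real.pi / 8) ψ) := by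
  have h : (⟨i, hi⟩ : Fin n).castSucc ≠ (⟨j, hj⟩ : Fin n).castSucc := by
    intro e
    exact hij (congrArg Fin.val (Fin.castSucc_injective n e))
  have := run_three h k l (toReal ψ)
  rw [crotR_castSucc] at this
  rw [← this]
  simp only [crot, List.map_cons, List.map_nil, toStep, Option.map_some, Option.map_none,
    fi_lt hi, fi_lt hj]

theorem sim_gate {g : Gate} (hg : g.WF n) (ψ : (Fin n → Bool) → ℂ) :
    run ((simGate n g).map (toStep n)) (toReal ψ) = toReal (g.apply ψ) := by
  cases g with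
  | H i =>
    have hi : i < n := hg
    rw [← rop_had hi]
    funext x
    simp only [simGate, List.map_cons, List.map_nil, toStep, Option.map_some, Option.map_none,
      fi_lt hi, fi_last, run, List.foldl_cons, List.foldl_nil, Step.op]
    have : ∀ χ : (Fin (n + 1) → Bool) → ℝ, rop none χ = χ := fun _ => rfl
    simp only [this]
    split_ifs <;> rfl
  | T i =>
    have hi : i < n := hg
    rw [simGate, run_crot_last hi]
    congr 1
    funext x
    simp only [phaseC, Gate.apply, bitAt_lt _ hi]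
    congr 3
    push_cast
    ring_nf
  | CNOT i j =>
    obtain ⟨hi, hj, hij⟩ := hg
    rw [simGate, List.map_append, List.map_append, List.map_append, run_append, run_append,
      run_append, run_crot_last hj, run_crot hi hj hij, run_crot_last hi, run_crot_last hj,
      ← cnot_eq hi hj hij]
    have e1 : 2 * (((2 : ℕ) : ℝ) - ((0 : ℕ) : ℝ)) * Real.pi / 8 = Real.pi / 2 := by
      push_cast; ring
    have e2 : 2 * (((0 : ℕ) : ℝ) - ((2 : ℕ) : ℝ)) * Real.pi / 8 = -(Real.pi / 2) := by
      push_cast; ring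
    rw [e1, e2]

theorem sim_run {gs : List Gate} (hg : ∀ g ∈ gs, g.WF n) (ψ : (Fin n → Bool) → ℂ) :
    run ((simGates n gs).map (toStep n)) (toReal ψ) = toReal (runGates gs ψ) := by
  induction gs generalizing ψ with
  | nil => rfl
  | cons g gs ih =>
    have : simGates n (g :: gs) = simGate n g ++ simGates n gs := rfl
    rw [this, List.map_append, run_append, sim_gate (hg g (by simp)),
      ih (fun g' h' => hg g' (by simp [h']))]
    rfl

/-! ### Sums -/

theorem sum_toReal (p : (Fin n → Bool) → Prop) [DecidablePred p] (ψ : (Fin n → Bool) → ℂ) :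
    (∑ s : Fin (n + 1) → Bool, if p (Fin.init s) then toReal ψ s ^ 2 else 0) =
      ∑ s, if p s then ‖ψ s‖ ^ 2 else 0 := by
  rw [← (Fin.snocEquiv (fun _ : Fin (n + 1) => Bool)).sum_comp, Fintype.sum_prod_type,
    Fintype.sum_bool, ← Finset.sum_add_distrib]
  refine Finset.sum_congr rfl fun s _ => ?_
  simp only [Fin.snocEquiv, Equiv.coe_fn_mk, toReal, Fin.init_snoc, Fin.snoc_last, if_true,
    Bool.false_eq_true, if_false]
  by_cases h : p s
  · simp only [h, if_true]
    rw [Complex.sq_norm, Complex.normSq_apply]; ring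
  · simp [h]

theorem sq_toReal (ψ : (Fin n → Bool) → ℂ) : H220.sq (toReal ψ) = ∑ s, ‖ψ s‖ ^ 2 := by
  have := sum_toReal (fun _ => True) ψ
  simpa [H220.sq] using this

theorem acc_toReal {i : ℕ} (hi : i < n) (ψ : (Fin n → Bool) → ℂ) :
    acc (fi n i) (toReal ψ) = ∑ s, if bitAt s i = true then ‖ψ s‖ ^ 2 else 0 := by
  rw [← sum_toReal, acc, fi_lt hi]
  refine Finset.sum_congr rfl fun s _ => ?_
  rw [bitAt_lt _ hi]
  rfl

end Vale.Agent.P370.H365
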